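import Mathlib.NumberTheory.NumberField.DedekindZeta
import Mathlib.NumberTheory.NumberField.InfinitePlace.TotallyRealComplex
import Mathlib.NumberTheory.Cyclotomic.Basic
import Vale.Agent.P016Z.Ab.Ctx

/-!
P016: statements of the blocks of the proof.
-/

open NumberField Finset Filter

namespace Vale.Agent.P016Z

section Fields

variable (K : Type) [Field K] [NumberField K]

/-- the number of ideals of norm `n` -/
noncomputable def aK (n : ℕ) : ℕ := Nat.card {I : Ideal (𝓞 K) // Ideal.absNorm I = n}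

/-- `∑ w(N I) N(I)^{-s}` -/
noncomputable def LK (w : ℕ → ℂ) (s : ℂ) : ℂ := LSeries (fun n => w n * aK K n) s

/-- `∑_p w(p) a_K(p) p^{-s}` over the rational primes -/
noncomputable def PK (w : ℕ → ℂ) (s : ℂ) : ℂ :=
  LSeries (fun n => if n.Prime then w n * aK K n else 0) s

open Classical in
/-- the Moebius function of an ideal -/
noncomputable def moebI {K : Type} [Field K] [NumberField K] (I : Ideal (𝓞 K)) : ℂ :=
  if Squarefree I then (-1) ^ (UniqueFactorizationMonoid.normalizedFactors I).card else 0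

/-- **Block II, output.** Cancellation in smooth Moebius sums over the ideals prime to `N0`. -/
def MuBound (θ : ℝ) : Prop := ∃ N0 : ℕ, N0 ≠ 0 ∧ ∀ W : ℝ → ℂ, Ab.IsWt W → ∀ σ : ℝ, θ < σ →
  ∃ C : ℝ, ∀ D : ℝ, 1 ≤ D →
    ‖∑' I : Ideal (𝓞 K), if (Ideal.absNorm I).Coprime N0 then
        moebI I * W ((Ideal.absNorm I : ℝ) / D) else 0‖ ≤ C * D ^ σ

/-- `F` continues `(s - 1) ∑ w(N I) N(I)^{-s}` to the half plane `3/4 < Re s` -/
def IsCont (w : ℕ → ℂ) (F : ℂ → ℂ) : Prop :=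
  DifferentiableOn ℂ F {s | 3 / 4 < s.re} ∧ ∀ s : ℂ, 1 < s.re → F s = (s - 1) * LK K w s

/-- the continuation of `(s - 1) ζ_K(s)` has no zero with `θ < Re s` -/
def NonVan (θ : ℝ) : Prop := ∀ F : ℂ → ℂ, IsCont K (fun _ => 1) F → ∀ s : ℂ, θ < s.re → F s ≠ 0

/-- the size `log |D_K| + [K : ℚ]` of a field -/
noncomputable def size : ℝ := Real.log |(discr K : ℝ)| + Module.finrank ℚ K

theorem LK_one (s : ℂ) : LK K (fun _ => 1) s = dedekindZeta K s := by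
  simp only [LK, aK, one_mul, dedekindZeta]

variable {K}

theorem coprime_absNorm_iff (I : Ideal (𝓞 K)) (N : ℕ) :
    (Ideal.absNorm I).Coprime N ↔ IsCoprime I (Ideal.span {(N : 𝓞 K)}) := by
  rw [Ideal.isCoprime_iff_sup_eq]
  constructor
  · intro h
    rw [Ideal.eq_top_iff_one]
    obtain ⟨u, v, huv⟩ := (Nat.isCoprime_iff_coprime.2 h)
    have h1 : ((u * (Ideal.absNorm I : ℕ) + v * (N : ℕ) : ℤ) : 𝓞 K) = 1 := by rw [huv]; simp
    rw [← h1]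
    push_cast
    exact Ideal.add_mem _ (Ideal.mem_sup_left (Ideal.mul_mem_left _ _ (Ideal.absNorm_mem I)))
      (Ideal.mem_sup_right (Ideal.mul_mem_left _ _ (Ideal.mem_span_singleton_self _)))
  · intro h
    by_contra hc
    obtain ⟨p, hp, h1, h2⟩ := Nat.Prime.not_coprime_iff_dvd.1 hc
    obtain ⟨P, hP, hPu, hPI⟩ := Ideal.exists_isMaximal_dvd_of_dvd_absNorm' hp I h1
    apply hP.ne_top
    rw [eq_top_iff, ← h]
    refine sup_le (Ideal.le_of_dvd hPI) ?_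
    rw [Ideal.span_singleton_le_iff_mem]
    obtain ⟨k, rfl⟩ := h2
    have h3 : ((p : ℤ)) ∈ P.under ℤ := by rw [hPu]; exact Ideal.mem_span_singleton_self _
    have h4 : (p : 𝓞 K) ∈ P := by simpa [Ideal.under, Ideal.mem_comap] using h3
    push_cast
    exact Ideal.mul_mem_right _ _ h4

end Fields

/-- **Block II.** -/
def MUB (θ : ℝ) : Prop := ∀ (K : Type) [Field K] [NumberField K] (z : K),
  IsPrimitiveRoot z 12 → MuBound K θ

/-- **HCONT.** Continuation for periodic weights. -/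
def HCONT : Prop := ∀ (K : Type) [Field K] [NumberField K] [IsTotallyComplex K] (m : ℕ), m ≠ 0 →
  ∀ w : ℕ → ℂ, (∀ n, w (n + m) = w n) → ∃ F : ℂ → ℂ, IsCont K w F

/-- **HBD.** Uniform growth bound. -/
def HBD : Prop := ∃ C : ℝ, ∀ (K : Type) [Field K] [NumberField K] [IsTotallyComplex K]
  (F : ℂ → ℂ), IsCont K (fun _ => 1) F → ∀ s : ℂ, 3 / 4 < s.re → s.re ≤ 2 →
    ‖F s‖ ≤ Real.exp (C * (size K * (1 + |s.im|)))

/-- **EXPLOG.** The Euler product up to a factor which is holomorphic and bounded. -/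
def EXPLOG : Prop := ∃ C : ℝ, ∀ (K : Type) [Field K] [NumberField K] (χ : ℕ →* ℂ),
  (∀ n, ‖χ n‖ ≤ 1) → ∃ h : ℂ → ℂ, DifferentiableOn ℂ h {s | 3 / 4 < s.re} ∧
    (∀ s : ℂ, 3 / 4 < s.re → ‖h s‖ ≤ C * Module.finrank ℚ K) ∧
    ∀ s : ℂ, 1 < s.re → LK K χ s = Complex.exp (PK K χ s + h s)

/-- **MUINV.** From Moebius sums to the reciprocal of the zeta function. -/
def MUINV : Prop := ∀ (K : Type) [Field K] [NumberField K] (θ : ℝ), MuBound K θ →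
  ∃ N0 : ℕ, N0 ≠ 0 ∧ ∀ ρ : ℂ, ∃ M V : ℂ → ℂ, DifferentiableOn ℂ M {s | θ < s.re} ∧
    Differentiable ℂ V ∧ V ρ ≠ 0 ∧
    ∀ s : ℂ, 1 < s.re → M s * LK K (fun n => if n.Coprime N0 then 1 else 0) s = V s

/-- **SPL12.** Primes of degree one in `K(ζ₁₂)`. -/
def SPL12 : Prop := ∀ (K L : Type) [Field K] [NumberField K] [Field L] [NumberField L]
  [Algebra K L] [IsCyclotomicExtension {12} K L] (p : ℕ), p.Prime → 3 < p →
    aK L p = if p % 12 = 1 then Module.finrank K L * aK K p else 0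

/-- **NONVAN.** -/
def NONVAN (θ : ℝ) : Prop := ∀ (K : Type) [Field K] [NumberField K] [IsTotallyComplex K],
  NonVan K θ

/-- **CHEB.** Primes of degree one, uniformly in the field. -/
def CHEB : Prop := ∃ C δ : ℝ, 0 < δ ∧ ∀ (K : Type) [Field K] [NumberField K]
  [IsTotallyComplex K] (X : ℕ), 2 ≤ X →
    ((∑ p ∈ (Ioc X (2 * X)).filter Nat.Prime, aK K p : ℕ) : ℝ) ≤
      C * (X * Real.log X + size K * (X : ℝ) ^ (1 - δ))

/-- the primes `p` with `l ∣ p - 1` modulo which `a` is a nonzero `l`-th power -/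
def Bad (a : ℤ) (l p : ℕ) : Prop :=
  p.Prime ∧ l ∣ p - 1 ∧ ¬ (p : ℤ) ∣ a ∧ (a : ZMod p) ^ ((p - 1) / l) = 1

/-- **KUM.** The Kummer field of `a` and `l`. -/
def KUM : Prop := ∀ a : ℤ, 2 ≤ |a| → ∃ C : ℝ, ∀ l : ℕ, l.Prime → |a| < l →
  ∃ (K : Type) (_ : Field K) (_ : NumberField K) (_ : IsTotallyComplex K),
    size K ≤ C * (l : ℝ) ^ 4 ∧ ∀ p : ℕ, Bad a l p → l * (l - 1) ≤ aK K p

open Classical in
/-- **SPLIT.** -/
def SPLIT : Prop := ∀ a : ℤ, 2 ≤ |a| → ∃ C δ : ℝ, 0 < δ ∧ ∀ l : ℕ, l.Prime → |a| < l →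
  ∀ X : ℕ, 2 ≤ X → (((Ioc X (2 * X)).filter (Bad a l)).card : ℝ) ≤
    C * (X * Real.log X / (l : ℝ) ^ 2 + (l : ℝ) ^ 2 * (X : ℝ) ^ (1 - δ))

/-- `p = c r Q + 1`, `Q` a prime, all primes of `r` in a window, `r Q ≡ u (mod v)` -/
def Nice (c u v : ℕ) (η : ℝ) (N p : ℕ) : Prop := p.Prime ∧ ∃ r Q : ℕ, p = c * r * Q + 1 ∧
  Q.Prime ∧ (r : ℝ) ≤ (N : ℝ) ^ (1 / 10 : ℝ) ∧ r * Q % v = u % v ∧ ∀ l : ℕ, l.Prime → l ∣ r →
    Real.log (Real.log N) ^ 2 ≤ Real.log l ∧ (l : ℝ) ≤ (N : ℝ) ^ η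

open Classical in
/-- **PRIMES.** -/
def PRIMES : Prop := ∀ c u v : ℕ, 0 < c → Even c → 0 < v → u.Coprime v → (c * u + 1).Coprime v →
  ∀ η : ℝ, 0 < η → ∃ C : ℕ, ∀ᶠ N : ℕ in atTop,
    (N : ℝ) / Real.log N ^ C ≤ (((range (N + 1)).filter (Nice c u v η N)).card : ℝ)

/-- **CLS.** A class of primes modulo which `a` is not a square. -/
def CLS : Prop := ∀ a : ℤ, a ≠ -1 → ¬ IsSquare a → ∃ c u v : ℕ, (c = 2 ∨ c = 4) ∧ 0 < v ∧
  u.Coprime v ∧ (c * u + 1).Coprime v ∧ ∀ w : ℕ, w % v = u % v → (c * w + 1).Prime →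
    ¬ ((c * w + 1 : ℕ) : ℤ) ∣ a ∧ ¬ IsSquare (a : ZMod (c * w + 1))

/-- **ARTIN.** -/
def ARTIN : Prop := ∀ a : ℤ, a ≠ -1 → ¬ IsSquare a →
  {p : ℕ | p.Prime ∧ ¬ (p : ℤ) ∣ a ∧ orderOf (a : ZMod p) = p - 1}.Infinite

end Vale.Agent.P016Z
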